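import Mathlib
import Vale.Agent.P370.QStmt

/-!
The instance builder: integer arithmetic only. `k` is the logarithm of the number of sites.
Angles are measured in units of `π / (2 D)`.
-/

namespace Vale.Agent.P370.Q.Alg

/-- number of sites -/
def aK (k : ℕ) : ℕ := 2 ^ k

/-- open shell -/
def an (k : ℕ) : ℕ := 2 ^ (2048 * k)

/-- size of the grid -/
def aD (k : ℕ) : ℕ := 16 * an k

/-- working precision (bits) -/
def aQ (k : ℕ) : ℕ := 512 * an k ^ 3

/-- `ch P m` approximates `2^P cos (π / 2^(m+1))` -/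
def ch (P : ℕ) : ℕ → ℕ
  | 0 => 0
  | m + 1 => Nat.sqrt ((2 ^ P + ch P m) * 2 ^ (P - 1))

theorem ch_zero (P : ℕ) : ch P 0 = 0 := rfl

theorem ch_succ (P m : ℕ) : ch P (m + 1) = Nat.sqrt ((2 ^ P + ch P m) * 2 ^ (P - 1)) := rfl

/-- `sh P m` approximates `2^P sin (π / 2^(m+1))` -/
def sh (P m : ℕ) : ℕ := Nat.sqrt (2 ^ (2 * P) - ch P m ^ 2)

/-- powers of the Gaussian integer `c + s i` -/
def gp (c s : ℤ) : ℕ → ℤ × ℤ
  | 0 => (1, 0)
  | j + 1 => ((gp c s j).1 * c - (gp c s j).2 * s, (gp c s j).1 * s + (gp c s j).2 * c)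

theorem gp_zero (c s : ℤ) : gp c s 0 = (1, 0) := rfl

theorem gp_succ (c s : ℤ) (j : ℕ) : gp c s (j + 1) =
    ((gp c s j).1 * c - (gp c s j).2 * s, (gp c s j).1 * s + (gp c s j).2 * c) := rfl

/-- `zet k j` is the `j`-th power of the approximation of `2^P exp (i π / (2 D))`, `P = 2 Q` -/
def zet (k j : ℕ) : ℤ × ℤ :=
  gp (ch (2 * aQ k) (2048 * k + 4)) (sh (2 * aQ k) (2048 * k + 4)) j

/-- `2^Q cos (π j / (2 D))` -/
def cs (k j : ℕ) : ℤ := (zet k j).1 * 2 ^ aQ k / 2 ^ (2 * aQ k * j)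

/-- `2^Q sin (π j / (2 D))` -/
def sn (k j : ℕ) : ℤ := (zet k j).2 * 2 ^ aQ k / 2 ^ (2 * aQ k * j)

/-- multipole order at distance `d` -/
def aq (k d : ℕ) : ℕ :=
  min (an k - 1)
    ((cs k (d * 2 ^ (2047 * k + 4)) * ((an k : ℤ) - 1) + 2 ^ (aQ k - 1)) / 2 ^ aQ k).toNat

/-- unit of strength of a device -/
def aXu (k N : ℕ) : ℕ :=
  2 ^ (16 * an k ^ 2 * N) * (2 * N + 1) * ((2 * an k).factorial / (2 * an k - 1 - N).factorial) *
    (an k / 2) ^ (N + 1)

/-- `Re` of the `N`-th power of `cos θ_a + i sin θ_a cos (φ_b - g)`, scaled by `2^(Q N)`; `g` in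
units of `π / (2 D)` -/
def gre (k a b g N : ℕ) : ℤ :=
  (gp (cs k (2 * a + 1)) (sn k (2 * a + 1) * cs k (4 * b + 4 * aD k - g) / 2 ^ aQ k) N).1

/-- device term with amplitude `amp` -/
def dterm (k a b g N amp : ℕ) : ℤ := (amp : ℤ) * gre k a b g N / 2 ^ (aQ k * N)

/-- sum of the top devices -/
def topSum (k a b : ℕ) : ℤ :=
  ((List.range (aK k)).map fun i =>
    dterm k a b (i * 2 ^ (2047 * k + 5)) (2 * (an k - 1))
      (2 ^ (an k / (4 * aK k ^ 2)) * aXu k (2 * (an k - 1)))).sum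

/-- coupling parameter of the pair `i, j`; `s` is the list of the parameters -/
def sget (k : ℕ) (s : List ℕ) (i j : ℕ) : ℕ := s.getD (i * aK k + j) 0

/-- sum of the hopping devices -/
def hopSum (k : ℕ) (s : List ℕ) (a b : ℕ) : ℤ :=
  ((List.range (aK k)).map fun j => ((List.range j).map fun i =>
    dterm k a b ((i + j) * 2 ^ (2047 * k + 4)) (2 * aq k (j - i))
      (sget k s i j * (aXu k (2 * aq k (j - i)) / 2 ^ an k))).sum).sum

/-- Fejér weight, scaled by `2^Q D²` -/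
def fejA (k a : ℕ) : ℤ :=
  2 ^ aQ k - 2 * ((List.range (aD k / 2)).map fun j =>
    cs k (2 * (j + 1) * (2 * a + 1)) / (4 * ((j : ℤ) + 1) ^ 2 - 1)).sum

/-- charge of the node `(a, b)` -/
def chg (k : ℕ) (s : List ℕ) (a b : ℕ) : ℕ :=
  (fejA k a * (2 ^ (128 * an k ^ 3) + topSum k a b + hopSum k s a b) /
    (2 ^ aQ k * (aD k : ℤ) ^ 2)).toNat

/-- coordinates of the node, scaled by `2^Q` -/
def crd (k a b c : ℕ) : ℤ :=
  if c = 0 then sn k (2 * a + 1) * cs k (4 * b) / 2 ^ aQ k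
  else if c = 1 then sn k (2 * a + 1) * sn k (4 * b) / 2 ^ aQ k
  else cs k (2 * a + 1)

/-- numerator of the coordinate of the nucleus; the number of the node is stored in the low order
bits -/
def numer (k a b c : ℕ) : ℤ := 2 * (crd k a b c * (aD k : ℤ) ^ 2 + (a * aD k + b)) + 1

/-- exponent of the denominator of the coordinates -/
def bexp (k : ℕ) : ℕ := 1 + 2 * (2048 * k + 4) + aQ k + 16 * an k ^ 2 + 2000 * an k ^ 3

/-- total nuclear charge -/
def aT (k : ℕ) : ℕ := 2 ^ (2000 * an k ^ 3)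

/-- sum of the charges of the light nuclei -/
def chgSum (k : ℕ) (s : List ℕ) : ℕ :=
  ((List.range (aD k * aD k)).map fun β => chg k s (β / aD k) (β % aD k)).sum

/-- number of electrons -/
def aN (k : ℕ) : ℕ := 2 * ((List.range (an k)).map fun j => j ^ 2).sum + aK k

/-- code of the rational number `m / 2^e` with odd `m` -/
def encDy (m : ℤ) (e : ℕ) : List Bool :=
  decide (m < 0) :: (encNat m.natAbs ++ encNat (2 ^ e))

/-- code of an integer as a rational number -/
def encZ (m : ℤ) : List Bool := decide (m < 0) :: (encNat m.natAbs ++ encNat 1)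

/-- The word encoding the instance with threshold `th`, `th + 1`. -/
def build (k : ℕ) (s : List ℕ) (th : ℤ) : List Bool :=
  (true :: (encZ 0 ++ encZ 0 ++ encZ 0 ++ encNat (aT k - chgSum k s))) ++
  ((List.range (aD k * aD k)).flatMap fun β =>
    true :: (encDy (numer k (β / aD k) (β % aD k) 0) (bexp k) ++
      encDy (numer k (β / aD k) (β % aD k) 1) (bexp k) ++
      encDy (numer k (β / aD k) (β % aD k) 2) (bexp k) ++
      encNat (chg k s (β / aD k) (β % aD k)))) ++
  [false] ++ List.replicate (aN k) true ++ [false] ++ encZ th ++ encZ (th + 1)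

/-- the instance encoded by `build` -/
noncomputable def inst (k : ℕ) (s : List ℕ) (th : ℤ) : Instance where
  M := aD k * aD k + 1
  pos := Fin.cons 0 (fun β c => (numer k (β / aD k) (β % aD k) c : ℚ) / 2 ^ bexp k)
  charge := Fin.cons (aT k - chgSum k s) (fun β => chg k s (β / aD k) (β % aD k))
  N := aN k
  a := th
  b := th + 1

end Vale.Agent.P370.Q.Alg
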